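import Mathlib

/-!
# P050: the objects of the problem
-/

namespace Vale.Agent.N050B

open MeasureTheory unitInterval Filter Topology

noncomputable section

variable {V X : Type}

/-- `t(H, G) = hom(H, G) / |V(G)| ^ |V(H)|` -/
def t (H : SimpleGraph V) (G : SimpleGraph X) : ℝ :=
  (Nat.card (H →g G) : ℝ) / (Nat.card X : ℝ) ^ Nat.card V

/-- `p(G) = 2 |E(G)| / |V(G)| ^ 2` -/
def p (G : SimpleGraph X) : ℝ := 2 * (Nat.card G.edgeSet : ℝ) / (Nat.card X : ℝ) ^ 2

/-- `t(H, G) ≥ p(G) ^ |E(H)|` for every finite graph `G` with at least one vertex -/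
def Sidorenko (H : SimpleGraph V) : Prop :=
  ∀ (X : Type) [Finite X] [Nonempty X] (G : SimpleGraph X), p G ^ Nat.card H.edgeSet ≤ t H G

/-- `H` is forcing at density `q`: graphs on `N → ∞` vertices with `p → q` and
`t(H, ·) → q ^ |E(H)|` are quasirandom, that is `t(F, ·) → q ^ |E(F)|` for every finite `F` -/
def Forcing (H : SimpleGraph V) (q : ℝ) : Prop :=
  ∀ G : ∀ N, SimpleGraph (Fin N), Tendsto (fun N => p (G N)) atTop (𝓝 q) →
    Tendsto (fun N => t H (G N)) atTop (𝓝 (q ^ Nat.card H.edgeSet)) →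
    ∀ (n : ℕ) (F : SimpleGraph (Fin n)),
      Tendsto (fun N => t F (G N)) atTop (𝓝 (q ^ Nat.card F.edgeSet))

/-- a symmetric measurable function `[0, 1]² → [0, 1]` -/
structure IsGraphon (W : I → I → ℝ) : Prop where
  meas : Measurable fun z : I × I => W z.1 z.2
  symm : ∀ x y, W x y = W y x
  mem : ∀ x y, 0 ≤ W x y ∧ W x y ≤ 1

/-- `t(H, W)`, the integral over `[0, 1] ^ V(H)` of the product of `W(x_u, x_v)` over the edges -/
def tW [Fintype V] (H : SimpleGraph V) (W : I → I → ℝ) : ℝ :=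
  ∫ x : V → I, ∏ᶠ e : H.edgeSet, W (x e.1.out.1) (x e.1.out.2)

end

end Vale.Agent.N050B
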