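import Mathlib

/-!
# P050: densities in finite weighted graphs, and random colourings
-/

namespace Vale.Agent.N050B

open Finset Filter Topology Function

noncomputable section

/-- the average over a finite type -/
def av {α : Type} [Fintype α] (f : α → ℝ) : ℝ := (∑ a, f a) / Fintype.card α

section av

variable {α β : Type} [Fintype α] [Fintype β] {f g : α → ℝ}

theorem av_equiv (e : α ≃ β) (f : β → ℝ) : av (fun a => f (e a)) = av f := by
  rw [av, av, Fintype.card_congr e, e.sum_comp]

theorem av_prod (f : α × β → ℝ) : av f = av fun a => av fun b => f (a, b) := by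
  simp only [av, Fintype.sum_prod_type, Fintype.card_prod, Nat.cast_mul, ← sum_div]
  rw [div_div, mul_comm]

theorem av_const [Nonempty α] (c : ℝ) : av (fun _ : α => c) = c := by
  have : (Fintype.card α : ℝ) ≠ 0 := by exact_mod_cast Fintype.card_ne_zero
  simp [av, mul_div_cancel_left₀ _ this]

theorem av_mono (h : ∀ a, f a ≤ g a) : av f ≤ av g :=
  div_le_div_of_nonneg_right (sum_le_sum fun a _ => h a) (Nat.cast_nonneg _)

theorem av_nonneg (h : ∀ a, 0 ≤ f a) : 0 ≤ av f :=
  div_nonneg (sum_nonneg fun a _ => h a) (Nat.cast_nonneg _)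

theorem av_add (f g : α → ℝ) : av (fun a => f a + g a) = av f + av g := by
  simp only [av, sum_add_distrib, add_div]

theorem av_mul (c : ℝ) (f : α → ℝ) : av (fun a => c * f a) = c * av f := by
  simp only [av, ← mul_sum, mul_div_assoc]

theorem av_sum (f : β → α → ℝ) : av (fun a => ∑ b, f b a) = ∑ b, av (f b) := by
  simp only [av, ← sum_div]
  rw [sum_comm]

theorem av_pi {ι : Type} [Fintype ι] [DecidableEq ι] (g : ι → α → ℝ) :
    av (fun x : ι → α => ∏ i, g i (x i)) = ∏ i, av (g i) := by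
  simp only [av, prod_div_distrib, Fintype.prod_sum, Fintype.card_fun, prod_const, card_univ,
    Nat.cast_pow]

theorem av_comp_inj {V V' : Type} [Fintype V] [DecidableEq V] [Fintype V'] [DecidableEq V']
    [Nonempty α] {f : V → V'} (hf : Injective f) (g : (V → α) → ℝ) :
    av (fun τ : V' → α => g (τ ∘ f)) = av g := by
  classical
  let σ : V ⊕ ((Set.range f)ᶜ : Set V') ≃ V' :=
    (Equiv.sumCongr (Equiv.ofInjective f hf) (Equiv.refl _)).trans (Equiv.Set.sumCompl _)
  let e := (Equiv.arrowCongr σ.symm (Equiv.refl α)).trans (Equiv.sumArrowEquivProdArrow _ _ α)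
  have h := av_equiv e fun p => g p.1
  rw [av_prod] at h
  simp only [av_const] at h
  exact h

end av

variable {ι ι' V V' X κ : Type} [Fintype ι] [Fintype ι'] [Fintype V] [DecidableEq V] [Fintype V']
  [DecidableEq V'] [Fintype X] [Fintype κ] [DecidableEq κ]

/-- the density of the edge list `ε` in the weighted graph `A` -/
def dens (ε : ι → Sym2 V) (A : Sym2 X → ℝ) : ℝ := av fun φ : V → X => ∏ j, A ((ε j).map φ)

theorem dens_nonneg (ε : ι → Sym2 V) {A : Sym2 X → ℝ} (h : ∀ e, 0 ≤ A e) : 0 ≤ dens ε A :=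
  av_nonneg fun _ => prod_nonneg fun _ _ => h _

theorem dens_le_one [Nonempty X] (ε : ι → Sym2 V) {A : Sym2 X → ℝ} (h : ∀ e, 0 ≤ A e)
    (h1 : ∀ e, A e ≤ 1) : dens ε A ≤ 1 :=
  (av_mono fun _ => prod_le_one (fun _ _ => h _) fun _ _ => h1 _).trans (av_const 1).le

theorem dens_mul (ε : ι → Sym2 V) (c : ℝ) (A : Sym2 X → ℝ) :
    dens ε (fun e => c * A e) = c ^ Fintype.card ι * dens ε A := by
  simp only [dens, prod_mul_distrib, prod_const, card_univ, av_mul]

theorem dens_tensor (ε : ι → Sym2 V) (A : κ → Sym2 X → ℝ) :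
    dens ε (fun e : Sym2 (κ → X) => ∏ l, A l (e.map fun x => x l)) = ∏ l, dens ε (A l) := by
  simp only [dens]
  rw [← av_pi, ← av_equiv (Equiv.piComm fun (_ : V) (_ : κ) => X)]
  congr 1
  funext φ
  rw [Finset.prod_comm]
  simp only [Sym2.map_map]
  rfl

theorem dens_proj [Nonempty X] (ε : ι → Sym2 V) (A : Sym2 X → ℝ) (i : κ) :
    dens ε (fun e : Sym2 (κ → X) => A (e.map fun x => x i)) = dens ε A := by
  have h := dens_tensor ε fun l e => if l = i then A e else 1
  simp only [prod_ite_eq', mem_univ, if_true] at h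
  rw [h, prod_eq_single i (fun l _ hl => ?_) fun h => absurd (mem_univ i) h]
  · simp only [if_true]
  · simp only [if_neg hl, dens, prod_const_one, av_const]

/-- disjoint union of edge lists -/
def both (ε : ι → Sym2 V) (ε' : ι' → Sym2 V') : ι ⊕ ι' → Sym2 (V ⊕ V') :=
  Sum.elim (fun j => (ε j).map Sum.inl) fun j => (ε' j).map Sum.inr

theorem dens_both (ε : ι → Sym2 V) (ε' : ι' → Sym2 V') (A : Sym2 X → ℝ) :
    dens (both ε ε') A = dens ε A * dens ε' A := by
  simp only [dens]
  rw [← av_equiv (Equiv.sumArrowEquivProdArrow V V' X).symm, av_prod, mul_comm, ← av_mul]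
  congr 1
  funext φ
  rw [mul_comm, ← av_mul]
  congr 1
  funext ψ
  simp only [Fintype.prod_sum_type, both, Sum.elim_inl, Sum.elim_inr, Sym2.map_map]
  rfl

/-- the edge list of a simple graph -/
structure Simple (ε : ι → Sym2 V) : Prop where
  inj : Injective ε
  nd : ∀ j, ¬(ε j).IsDiag

omit [Fintype ι] [Fintype ι'] [Fintype V] [DecidableEq V] [Fintype V'] [DecidableEq V'] in
theorem Simple.both {ε : ι → Sym2 V} {ε' : ι' → Sym2 V'} (h : Simple ε) (h' : Simple ε') :
    Simple (both ε ε') := by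
  have key : ∀ (a : Sym2 V) (b : Sym2 V'), a.map Sum.inl ≠ b.map Sum.inr := by
    intro a b
    induction a, b using Sym2.inductionOn₂
    simp
  constructor
  · rintro (i | i) (j | j) e
    · rw [h.inj (Sym2.map.injective Sum.inl_injective e)]
    · exact absurd e (key _ _)
    · exact absurd e.symm (key _ _)
    · rw [h'.inj (Sym2.map.injective Sum.inr_injective e)]
  · rintro (i | i)
    · exact fun e => h.nd i ((Sym2.isDiag_map Sum.inl_injective).1 e)
    · exact fun e => h'.nd i ((Sym2.isDiag_map Sum.inr_injective).1 e)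

/-- a single edge -/
def one : Unit → Sym2 (Fin 2) := fun _ => s(0, 1)

theorem simple_one : Simple one := ⟨fun _ _ _ => rfl, fun _ => by simp [one]⟩

theorem av_edge [Nonempty X] {e : Sym2 V} (he : ¬e.IsDiag) (g : Sym2 X → ℝ) :
    av (fun φ : V → X => g (e.map φ)) = dens one g := by
  induction e using Sym2.inductionOn with
  | hf a b =>
    have hab : a ≠ b := by simpa using he
    have hinj : Injective ![a, b] := by
      intro i j
      fin_cases i <;> fin_cases j <;> simp [hab, hab.symm]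
    rw [dens, ← av_comp_inj hinj]
    simp [one]

/-- the proportion of maps that are not injective -/
def bad (V : Type) [Fintype V] [DecidableEq V] (N : ℕ) : ℝ :=
  av fun φ : V → Fin N => if Injective φ then 0 else 1

theorem tendsto_bad : Tendsto (bad V) atTop (𝓝 0) := by
  have h := (Asymptotics.isEquivalent_iff_tendsto_one (by
    filter_upwards [eventually_gt_atTop 0] with N hN
    positivity)).1 (isEquivalent_descFactorial (Fintype.card V))
  have h2 := h.const_sub 1
  rw [sub_self] at h2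
  refine h2.congr' ?_
  filter_upwards [eventually_gt_atTop 0] with N hN
  have : Nonempty (Fin N) := ⟨⟨0, hN⟩⟩
  have h3 : bad V N + av (fun φ : V → Fin N => if Injective φ then (1 : ℝ) else 0) = 1 := by
    rw [bad, ← av_add]
    refine Eq.trans ?_ (av_const (α := V → Fin N) 1)
    congr 1
    funext φ
    split_ifs <;> simp
  have h4 : (univ.filter fun φ : V → Fin N => Injective φ).card =
      N.descFactorial (Fintype.card V) := by
    rw [← Fintype.card_subtype, Fintype.card_congr (Equiv.subtypeInjectiveEquivEmbedding _ _),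
      Fintype.card_embedding_eq, Fintype.card_fin]
  rw [← h3, av, sum_boole, h4]
  simp

variable {N : ℕ}

/-- the law of the random colouring -/
def law (U : κ → Sym2 X → ℝ) (c : Sym2 (Fin N) → κ) : ℝ :=
  av fun τ : Fin N → X => ∏ e, U (c e) (e.map τ)

/-- the indicator function of a colour class -/
def cls (c : Sym2 (Fin N) → κ) (i : κ) (e : Sym2 (Fin N)) : ℝ :=
  if c e = i ∧ ¬e.IsDiag then 1 else 0

variable {U : κ → Sym2 X → ℝ}

omit [Fintype κ] [DecidableEq κ] in
theorem law_nonneg (h0 : ∀ i e, 0 ≤ U i e) (c : Sym2 (Fin N) → κ) : 0 ≤ law U c :=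
  av_nonneg fun _ => prod_nonneg fun _ _ => h0 _ _

omit [DecidableEq κ] in
theorem sum_law [Nonempty X] (h1 : ∀ e, ∑ i, U i e = 1) :
    ∑ c : Sym2 (Fin N) → κ, law U c = 1 := by
  simp only [law]
  rw [← av_sum]
  refine Eq.trans ?_ (av_const (α := Fin N → X) 1)
  congr 1
  funext τ
  rw [← Fintype.prod_sum fun e i => U i (Sym2.map τ e)]
  simp only [h1, prod_const_one]

theorem sum_law_inj [Nonempty X] (h1 : ∀ e, ∑ i, U i e = 1) {ε : ι → Sym2 V} (hε : Simple ε)
    (i : κ) {φ : V → Fin N} (hφ : Injective φ) :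
    ∑ c : Sym2 (Fin N) → κ, law U c * ∏ j, cls c i ((ε j).map φ) = dens ε (U i) := by
  classical
  have hη : Injective fun j => (ε j).map φ := (Sym2.map.injective hφ).comp hε.inj
  have key : ∀ g : Sym2 (Fin N) → ℝ, ∏ j, g ((ε j).map φ) =
      ∏ e, if e ∈ Set.range fun j => (ε j).map φ then g e else 1 := fun g =>
    Fintype.prod_of_injective _ hη _ _ (fun e he => if_neg he) fun j =>
      (if_pos (Set.mem_range_self j)).symm
  rw [dens, ← av_comp_inj hφ]
  simp only [law, mul_comm (av _), ← av_mul]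
  rw [← av_sum]
  congr 1
  funext τ
  have h2 : ∀ c : Sym2 (Fin N) → κ, (∏ j, cls c i ((ε j).map φ)) * ∏ e, U (c e) (e.map τ) =
      ∏ e, (if e ∈ Set.range fun j => (ε j).map φ then (if c e = i then 1 else 0) else 1) *
        U (c e) (e.map τ) := by
    intro c
    rw [prod_mul_distrib, ← key fun e => if c e = i then 1 else 0]
    congr 1
    refine prod_congr rfl fun j _ => ?_
    have h3 : ¬((ε j).map φ).IsDiag := fun e => hε.nd j ((Sym2.isDiag_map hφ).1 e)
    simp only [cls, h3, not_false_eq_true, and_true]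
  simp only [h2]
  rw [← Fintype.prod_sum fun e k => (if e ∈ Set.range fun j => (ε j).map φ then
    (if k = i then (1 : ℝ) else 0) else 1) * U k (Sym2.map τ e)]
  simp only [← Sym2.map_map]
  rw [key fun e => U i (e.map τ)]
  refine prod_congr rfl fun e _ => ?_
  split_ifs
  · simp
  · simp only [one_mul, h1]

omit [Fintype κ] in
theorem cls_nonneg (c : Sym2 (Fin N) → κ) (i : κ) (e : Sym2 (Fin N)) : 0 ≤ cls c i e := by
  unfold cls
  split_ifs <;> simp

omit [Fintype κ] in
theorem cls_le_one (c : Sym2 (Fin N) → κ) (i : κ) (e : Sym2 (Fin N)) : cls c i e ≤ 1 := by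
  unfold cls
  split_ifs <;> simp

omit [Fintype X] [DecidableEq κ] in
theorem le_one_of_sum (h0 : ∀ i e, 0 ≤ U i e) (h1 : ∀ e, ∑ i, U i e = 1) (i : κ) (e : Sym2 X) :
    U i e ≤ 1 :=
  (single_le_sum (fun k _ => h0 k e) (mem_univ i)).trans (h1 e).le

/-- the expected density in a colour class -/
theorem abs_mean_le [Nonempty X] (h0 : ∀ i e, 0 ≤ U i e) (h1 : ∀ e, ∑ i, U i e = 1)
    {ε : ι → Sym2 V} (hε : Simple ε) (i : κ) (hN : 0 < N) :
    |∑ c : Sym2 (Fin N) → κ, law U c * dens ε (cls c i) - dens ε (U i)| ≤ bad V N := by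
  have : Nonempty (Fin N) := ⟨⟨0, hN⟩⟩
  have e1 : ∑ c : Sym2 (Fin N) → κ, law U c * dens ε (cls c i) =
      av fun φ : V → Fin N => ∑ c : Sym2 (Fin N) → κ, law U c * ∏ j, cls c i ((ε j).map φ) := by
    rw [av_sum]
    simp only [dens, av_mul]
  have d0 := dens_nonneg ε (h0 i)
  have d1 := dens_le_one ε (h0 i) (le_one_of_sum h0 h1 i)
  have key : ∀ φ : V → Fin N,
      |∑ c : Sym2 (Fin N) → κ, law U c * ∏ j, cls c i ((ε j).map φ) - dens ε (U i)| ≤
        if Injective φ then 0 else 1 := by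
    intro φ
    split_ifs with hφ
    · rw [sum_law_inj h1 hε i hφ, sub_self, abs_zero]
    · have b0 : 0 ≤ ∑ c : Sym2 (Fin N) → κ, law U c * ∏ j, cls c i ((ε j).map φ) :=
        sum_nonneg fun c _ => mul_nonneg (law_nonneg h0 c) (prod_nonneg fun _ _ => cls_nonneg _ _ _)
      have b1 : ∑ c : Sym2 (Fin N) → κ, law U c * ∏ j, cls c i ((ε j).map φ) ≤ 1 :=
        (sum_le_sum fun c _ => mul_le_of_le_one_right (law_nonneg h0 c)
          (prod_le_one (fun _ _ => cls_nonneg _ _ _) fun _ _ => cls_le_one _ _ _)).trans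
          (sum_law h1).le
      rw [abs_le]
      constructor <;> linarith
  rw [e1, abs_le]
  constructor
  · have h := av_mono (f := fun _ : V → Fin N => dens ε (U i)) (g := fun φ =>
      (∑ c : Sym2 (Fin N) → κ, law U c * ∏ j, cls c i ((ε j).map φ)) +
        if Injective φ then 0 else 1) fun φ => by linarith [(abs_le.1 (key φ)).1]
    rw [av_const, av_add] at h
    rw [bad]
    linarith
  · have h := av_mono (g := fun φ : V → Fin N => dens ε (U i) + if Injective φ then 0 else 1)
      (f := fun φ => ∑ c : Sym2 (Fin N) → κ, law U c * ∏ j, cls c i ((ε j).map φ))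
      fun φ => by linarith [(abs_le.1 (key φ)).2]
    rw [av_add, av_const] at h
    rw [bad]
    linarith

/-- the variance of the density in a colour class -/
theorem var_le [Nonempty X] (h0 : ∀ i e, 0 ≤ U i e) (h1 : ∀ e, ∑ i, U i e = 1)
    {ε : ι → Sym2 V} (hε : Simple ε) (i : κ) (hN : 0 < N) :
    ∑ c : Sym2 (Fin N) → κ, law U c * (dens ε (cls c i) - dens ε (U i)) ^ 2 ≤
      bad (V ⊕ V) N + 2 * bad V N := by
  have a1 := abs_le.1 (abs_mean_le h0 h1 hε i hN)
  have a2 := abs_le.1 (abs_mean_le h0 h1 (hε.both hε) i hN)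
  have d0 := dens_nonneg ε (h0 i)
  have d1 := dens_le_one ε (h0 i) (le_one_of_sum h0 h1 i)
  simp only [dens_both] at a2
  have e : ∑ c : Sym2 (Fin N) → κ, law U c * (dens ε (cls c i) - dens ε (U i)) ^ 2 =
      ∑ c : Sym2 (Fin N) → κ, law U c * (dens ε (cls c i) * dens ε (cls c i)) -
        2 * dens ε (U i) * ∑ c : Sym2 (Fin N) → κ, law U c * dens ε (cls c i) +
        dens ε (U i) ^ 2 * ∑ c : Sym2 (Fin N) → κ, law U c := by
    rw [mul_sum, mul_sum, ← sum_sub_distrib, ← sum_add_distrib]
    exact sum_congr rfl fun c _ => by ring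
  rw [e, sum_law h1]
  nlinarith [a1.1, a1.2, a2.2]

omit [DecidableEq κ] in
theorem exists_le_mean [Nonempty X] (h0 : ∀ i e, 0 ≤ U i e) (h1 : ∀ e, ∑ i, U i e = 1)
    {f : (Sym2 (Fin N) → κ) → ℝ} {b : ℝ} (h : ∑ c, law U c * f c ≤ b) : ∃ c, f c ≤ b := by
  by_contra hc
  push Not at hc
  obtain ⟨c, -, hpos⟩ := exists_ne_zero_of_sum_ne_zero
    ((sum_law (N := N) h1).trans_ne one_ne_zero)
  have h2 : ∑ c : Sym2 (Fin N) → κ, law U c * b < ∑ c, law U c * f c :=
    sum_lt_sum (fun c _ => mul_le_mul_of_nonneg_left (hc c).le (law_nonneg h0 c))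
      ⟨c, mem_univ c, mul_lt_mul_of_pos_left (hc c) ((law_nonneg h0 c).lt_of_ne hpos.symm)⟩
  rw [← sum_mul, sum_law h1, one_mul] at h2
  exact absurd h (not_le.2 h2)

end

end Vale.Agent.N050B
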