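import Vale.Agent.N050B.Defs
import Vale.Agent.N050B.Dens

/-!
# P050: graphs and graphons as weighted graphs
-/

namespace Vale.Agent.N050B

open Finset Filter Topology Function MeasureTheory unitInterval

noncomputable section

variable {V X Y : Type}

open Classical in
/-- the indicator function of the edge set -/
def ind (G : SimpleGraph X) (e : Sym2 X) : ℝ := if e ∈ G.edgeSet then 1 else 0

theorem ind_cases (G : SimpleGraph X) (e : Sym2 X) : ind G e = 0 ∨ ind G e = 1 := by
  unfold ind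
  split_ifs <;> simp

theorem ind_nonneg (G : SimpleGraph X) (e : Sym2 X) : 0 ≤ ind G e := by
  rcases ind_cases G e with h | h <;> simp [h]

theorem ind_le_one (G : SimpleGraph X) (e : Sym2 X) : ind G e ≤ 1 := by
  rcases ind_cases G e with h | h <;> simp [h]

theorem simple_val (H : SimpleGraph V) : Simple (Subtype.val : H.edgeSet → Sym2 V) :=
  ⟨Subtype.val_injective, fun e => H.not_isDiag_of_mem_edgeSet e.2⟩

theorem t_eq [Fintype V] [DecidableEq V] [Fintype X] (H : SimpleGraph V) [Fintype H.edgeSet]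
    (G : SimpleGraph X) : t H G = dens (Subtype.val : H.edgeSet → Sym2 V) (ind G) := by
  classical
  have e : (H →g G) ≃ {φ : V → X // ∀ e : H.edgeSet, e.1.map φ ∈ G.edgeSet} :=
    { toFun := fun f => ⟨f, fun e => f.map_mem_edgeSet e.2⟩
      invFun := fun φ => ⟨φ.1, fun {a b} h => φ.2 ⟨s(a, b), h⟩⟩
      left_inv := fun _ => rfl
      right_inv := fun _ => rfl }
  rw [t, dens, av, Nat.card_congr e, Nat.card_eq_fintype_card, Fintype.card_subtype,
    Fintype.card_fun, Nat.card_eq_fintype_card, Nat.card_eq_fintype_card, Nat.cast_pow,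
    ← sum_boole]
  congr 1
  refine sum_congr rfl fun φ _ => ?_
  simp only [ind]
  rw [Fintype.prod_boole]

theorem dens_one [Fintype X] (g : Sym2 X → ℝ) :
    dens one g = av fun z : X × X => g s(z.1, z.2) := by
  rw [dens, ← av_equiv (finTwoArrowEquiv X)]
  simp [one]

theorem p_eq [Fintype X] (G : SimpleGraph X) : p G = dens one (ind G) := by
  classical
  have e : G.Dart ≃ {z : X × X // s(z.1, z.2) ∈ G.edgeSet} :=
    { toFun := fun d => ⟨d.toProd, d.adj⟩
      invFun := fun z => ⟨z.1, z.2⟩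
      left_inv := fun _ => rfl
      right_inv := fun _ => rfl }
  have h := G.dart_card_eq_twice_card_edges
  rw [Fintype.card_congr e, Fintype.card_subtype, SimpleGraph.edgeFinset_card] at h
  rw [dens_one, av, p, Nat.card_eq_fintype_card, Nat.card_eq_fintype_card, Fintype.card_prod]
  simp only [ind]
  rw [sum_boole, h]
  push_cast
  ring

theorem ind_cls {N : ℕ} {κ : Type} [DecidableEq κ] (c : Sym2 (Fin N) → κ) (i : κ) :
    ind (SimpleGraph.fromEdgeSet {e | c e = i}) = cls c i := by
  funext e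
  simp [ind, cls]

theorem exists_unif (X : Type) [Fintype X] [Nonempty X] : ∃ τ : I → X,
    (∀ g : X × X → ℝ, Measurable (fun z : I × I => g (τ z.1, τ z.2)) ∧
      ∫ z : I × I, g (τ z.1, τ z.2) = av g) ∧
    ∀ (V : Type) [Fintype V] [DecidableEq V] (g : (V → X) → ℝ),
      ∫ x : V → I, g (τ ∘ x) = av g := by
  let _ : MeasurableSpace X := ⊤
  obtain ⟨τ, h1, h2⟩ := Measure.exists_measurable_map_eq
    (ProbabilityTheory.uniformOn (Set.univ : Set X))
  have hτ : MeasurePreserving τ volume (ProbabilityTheory.uniformOn (Set.univ : Set X)) :=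
    ⟨h1, h2⟩
  have hx : ∀ x : X, ProbabilityTheory.uniformOn (Set.univ : Set X) {x} =
      (Fintype.card X : ENNReal)⁻¹ := fun x => by
    rw [ProbabilityTheory.uniformOn_univ, Measure.count_singleton, one_div]
  refine ⟨τ, fun g => ?_, fun V _ _ g => ?_⟩
  · have h3 := hτ.prod hτ
    refine ⟨(Measurable.of_discrete (f := g)).comp h3.measurable, ?_⟩
    have h4 := integral_map h3.measurable.aemeasurable
      (Measurable.of_discrete (f := g)).aestronglyMeasurable (μ := volume.prod volume)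
    rw [h3.map_eq, integral_fintype Integrable.of_finite] at h4
    refine h4.symm.trans ?_
    rw [av, sum_div]
    refine sum_congr rfl fun z _ => ?_
    rw [Measure.real, ← Set.singleton_prod_singleton, Measure.prod_prod, hx, hx]
    simp [div_eq_inv_mul]
  · have h3 := measurePreserving_pi (fun _ : V => (volume : Measure I))
      (fun _ => ProbabilityTheory.uniformOn (Set.univ : Set X)) fun _ => hτ
    have h4 := integral_map h3.measurable.aemeasurable
      (Measurable.of_discrete (f := g)).aestronglyMeasurable (μ := Measure.pi fun _ => volume)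
    rw [h3.map_eq, integral_fintype Integrable.of_finite] at h4
    refine h4.symm.trans ?_
    rw [av, sum_div]
    refine sum_congr rfl fun z _ => ?_
    rw [Measure.real, Measure.pi_singleton]
    simp [hx, div_eq_inv_mul]

/-- the step graphon of a weighted graph -/
theorem exists_graphon [Fintype V] [DecidableEq V] [Fintype X] [Nonempty X] (H : SimpleGraph V)
    [Fintype H.edgeSet] {A : Sym2 X → ℝ} (h0 : ∀ e, 0 ≤ A e) (h1 : ∀ e, A e ≤ 1) :
    ∃ W, IsGraphon W ∧ ∫ z : I × I, W z.1 z.2 = dens one A ∧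
      tW H W = dens (Subtype.val : H.edgeSet → Sym2 V) A := by
  obtain ⟨τ, h2, h3⟩ := exists_unif X
  refine ⟨fun x y => A s(τ x, τ y), ⟨(h2 fun z => A s(z.1, z.2)).1, fun x y => by
    rw [Sym2.eq_swap], fun x y => ⟨h0 _, h1 _⟩⟩, ?_, ?_⟩
  · rw [dens_one]
    exact (h2 fun z => A s(z.1, z.2)).2
  · rw [tW, dens, ← h3]
    congr 1
    funext x
    rw [finprod_eq_prod_of_fintype]
    refine prod_congr rfl fun e _ => ?_
    conv_rhs => rw [← Quot.out_eq e.1]
    rfl

/-- a weighted graph is the limit of graphs -/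
theorem exists_seq [Fintype V] [DecidableEq V] [Fintype X] [Nonempty X] (H : SimpleGraph V)
    [Fintype H.edgeSet] {A : Sym2 X → ℝ} (h0 : ∀ e, 0 ≤ A e) (h1 : ∀ e, A e ≤ 1) :
    ∃ G : ∀ N, SimpleGraph (Fin N), Tendsto (fun N => p (G N)) atTop (𝓝 (dens one A)) ∧
      Tendsto (fun N => t H (G N)) atTop (𝓝 (dens (Subtype.val : H.edgeSet → Sym2 V) A)) := by
  let U : Bool → Sym2 X → ℝ := fun b e => if b then A e else 1 - A e
  have u0 : ∀ i e, 0 ≤ U i e := fun i e => by
    cases i
    · exact sub_nonneg.2 (h1 e)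
    · exact h0 e
  have u1 : ∀ e, ∑ i, U i e = 1 := fun e => by simp [U]
  let η : ℕ → ℝ := fun N => (bad (Fin 2 ⊕ Fin 2) N + 2 * bad (Fin 2) N) +
    (bad (V ⊕ V) N + 2 * bad V N)
  have hη : Tendsto η atTop (𝓝 0) := by
    simpa using (tendsto_bad.add (tendsto_bad.const_mul 2)).add
      (tendsto_bad.add (tendsto_bad.const_mul 2))
  have key : ∀ N, ∃ c : Sym2 (Fin N) → Bool, 0 < N →
      (dens one (cls c true) - dens one A) ^ 2 + (dens (Subtype.val : H.edgeSet → Sym2 V)
        (cls c true) - dens (Subtype.val : H.edgeSet → Sym2 V) A) ^ 2 ≤ η N := by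
    intro N
    by_cases hN : 0 < N
    · obtain ⟨c, hc⟩ := exists_le_mean (N := N) u0 u1 (b := η N) (f := fun c =>
        (dens one (cls c true) - dens one A) ^ 2 + (dens (Subtype.val : H.edgeSet → Sym2 V)
          (cls c true) - dens (Subtype.val : H.edgeSet → Sym2 V) A) ^ 2) (by
        simp only [mul_add, sum_add_distrib]
        exact add_le_add (var_le u0 u1 simple_one true hN) (var_le u0 u1 (simple_val H) true hN))
      exact ⟨c, fun _ => hc⟩
    · exact ⟨fun _ => true, fun h => absurd h hN⟩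
  choose c hc using key
  have lim : ∀ (a : ℕ → ℝ) (b : ℝ), (∀ N, 0 < N → (a N - b) ^ 2 ≤ η N) →
      Tendsto a atTop (𝓝 b) := by
    intro a b h
    rw [tendsto_iff_norm_sub_tendsto_zero]
    have h2 := hη.sqrt
    rw [Real.sqrt_zero] at h2
    refine squeeze_zero' (Eventually.of_forall fun _ => norm_nonneg _) ?_ h2
    filter_upwards [eventually_gt_atTop 0] with N hN
    exact Real.abs_le_sqrt (h N hN)
  refine ⟨fun N => SimpleGraph.fromEdgeSet {e | c N e = true}, lim _ _ fun N hN => ?_,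
    lim _ _ fun N hN => ?_⟩
  · rw [p_eq, ind_cls]
    exact (le_add_of_nonneg_right (sq_nonneg _)).trans (hc N hN)
  · rw [t_eq, ind_cls]
    exact (le_add_of_nonneg_left (sq_nonneg _)).trans (hc N hN)

theorem card_hom_map {H : SimpleGraph V} (hH : ∀ v, ∃ w, H.Adj v w) (G : SimpleGraph X)
    (f : X ↪ Y) : Nat.card (H →g G.map f) = Nat.card (H →g G) := by
  refine (Nat.card_congr (Equiv.ofBijective
    (fun φ : H →g G => (SimpleGraph.Embedding.map f G).toHom.comp φ) ⟨?_, ?_⟩)).symm
  · intro φ ψ h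
    ext v
    exact f.injective (DFunLike.congr_fun h v)
  · intro ψ
    have h : ∀ v, ∃ x, f x = ψ v := fun v => by
      obtain ⟨w, hw⟩ := hH v
      obtain ⟨x, y, -, h1, -⟩ := (SimpleGraph.map_adj f G _ _).1 (ψ.map_adj hw)
      exact ⟨x, h1⟩
    choose g hg using h
    refine ⟨⟨g, fun {a b} hab => ?_⟩, ?_⟩
    · have h2 := ψ.map_adj hab
      rwa [← hg, ← hg, SimpleGraph.map_adj_apply] at h2
    · ext v
      exact hg v

theorem card_edge_map (G : SimpleGraph X) (f : X ↪ Y) :
    Nat.card (G.map f).edgeSet = Nat.card G.edgeSet := by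
  rw [SimpleGraph.edgeSet_map, Nat.card_image_of_injective f.sym2Map.injective]

theorem isolated_map [Finite Y] (G : SimpleGraph X) (f : X ↪ Y) :
    Nat.card Y ≤ Set.ncard {v | ∀ w, ¬(G.map f).Adj v w} + Nat.card X := by
  rw [← Set.ncard_add_ncard_compl (Set.range f), add_comm, Set.ncard_range_of_injective f.injective]
  refine Nat.add_le_add_right (Set.ncard_le_ncard ?_) _
  intro v hv w h
  refine hv ?_
  obtain ⟨x, y, -, h1, -⟩ := (SimpleGraph.map_adj f G _ _).1 h
  exact ⟨x, h1⟩

/-- a limit placed on a fraction `α` of the vertices -/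
theorem exists_seq_frac [Fintype V] {H : SimpleGraph V} (hH : ∀ v, ∃ w, H.Adj v w)
    {G : ∀ N, SimpleGraph (Fin N)} {a b α : ℝ} (ha : Tendsto (fun N => p (G N)) atTop (𝓝 a))
    (hb : Tendsto (fun N => t H (G N)) atTop (𝓝 b)) (h0 : 0 < α) (h1 : α ≤ 1) :
    ∃ G' : ∀ N, SimpleGraph (Fin N), Tendsto (fun N => p (G' N)) atTop (𝓝 (a * α ^ 2)) ∧
      Tendsto (fun N => t H (G' N)) atTop (𝓝 (b * α ^ Nat.card V)) ∧
      ∀ N : ℕ, (1 - α) * N ≤ Set.ncard {v | ∀ w, ¬(G' N).Adj v w} := by
  have hle : ∀ N : ℕ, (⌊α * N⌋₊ : ℝ) ≤ α * N := fun N => Nat.floor_le (by positivity)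
  have hM : ∀ N : ℕ, ⌊α * N⌋₊ ≤ N := fun N => by
    have : α * N ≤ N := mul_le_of_le_one_left (Nat.cast_nonneg _) h1
    exact_mod_cast (hle N).trans this
  have l1 := tendsto_nat_floor_mul_atTop α h0
  have l2 : Tendsto (fun N : ℕ => (⌊α * N⌋₊ : ℝ) / N) atTop (𝓝 α) :=
    (tendsto_nat_floor_mul_div_atTop h0.le).comp tendsto_natCast_atTop_atTop
  refine ⟨fun N => (G ⌊α * N⌋₊).map (Fin.castLEEmb (hM N)), ?_, ?_, fun N => ?_⟩
  · refine ((ha.comp l1).mul (l2.pow 2)).congr' ?_
    filter_upwards [l1.eventually_gt_atTop 0] with N hN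
    have : (⌊α * N⌋₊ : ℝ) ≠ 0 := by exact_mod_cast hN.ne'
    simp only [Function.comp, p, card_edge_map, Nat.card_eq_fintype_card, Fintype.card_fin]
    field_simp
  · refine ((hb.comp l1).mul (l2.pow (Nat.card V))).congr' ?_
    filter_upwards [l1.eventually_gt_atTop 0] with N hN
    have : (⌊α * N⌋₊ : ℝ) ≠ 0 := by exact_mod_cast hN.ne'
    simp only [Function.comp, t, card_hom_map hH, Nat.card_fin, div_pow]
    field_simp
  · have h := isolated_map (G ⌊α * N⌋₊) (Fin.castLEEmb (hM N))
    rw [Nat.card_fin, Nat.card_fin] at h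
    have h' : (N : ℝ) ≤ Set.ncard {v | ∀ w, ¬((G ⌊α * N⌋₊).map (Fin.castLEEmb (hM N))).Adj v w} +
      (⌊α * N⌋₊ : ℝ) := by exact_mod_cast h
    linarith [hle N]

end

end Vale.Agent.N050B
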