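import Vale.Agent.N050B.Graph

/-!
# P050: consequences of the failure of Sidorenko's inequality
-/

namespace Vale.Agent.N050B

open Finset Filter Topology Function MeasureTheory unitInterval

noncomputable section

variable {ι V X : Type}

section colours

variable [Fintype ι] [Fintype V] [DecidableEq V] [Fintype X] [Nonempty X]

/-- `k` independent copies of a graph cover almost all pairs about equally often. -/
theorem exists_colouring {ε : ι → Sym2 V} (hε : Simple ε) {B : Sym2 X → ℝ}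
    (hB : ∀ e, B e = 0 ∨ B e = 1) (hq : 0 < dens one B) {k : ℕ} (hk : 0 < k) {N : ℕ}
    (hN : 0 < N) : ∃ c : Sym2 (Fin N) → Fin k, ∑ i, dens ε (cls c i) ≤
      k * ((2 / (k * dens one B)) ^ Fintype.card ι * dens ε B +
        Fintype.card ι * Real.exp (-(k * dens one B) / 10) + bad V N) := by
  set q := dens one B with hq'
  have hkq : 0 < k * q := by positivity
  have b0 : ∀ e, 0 ≤ B e := fun e => by rcases hB e with h | h <;> simp [h]
  have b1 : ∀ e, B e ≤ 1 := fun e => by rcases hB e with h | h <;> simp [h]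
  let A : Fin k → Sym2 (Fin k → X) → ℝ := fun i e => B (e.map fun x => x i)
  let S : Sym2 (Fin k → X) → ℝ := fun e => ∑ i, A i e
  let U : Fin k → Sym2 (Fin k → X) → ℝ := fun i e => if S e = 0 then (k : ℝ)⁻¹ else A i e / S e
  have s0 : ∀ e, 0 ≤ S e := fun e => sum_nonneg fun i _ => b0 _
  have u0 : ∀ i e, 0 ≤ U i e := fun i e => by
    simp only [U]
    split_ifs
    · positivity
    · exact div_nonneg (b0 _) (s0 e)
  have u1 : ∀ e, ∑ i, U i e = 1 := fun e => by
    simp only [U]
    split_ifs with h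
    · simp [hk.ne']
    · rw [← sum_div, div_self h]
  let g : Sym2 (Fin k → X) → ℝ := fun e =>
    Real.exp (k * q / 2) * ∏ l, (1 + (-3 / 5) * B (e.map fun x => x l))
  have g1 : ∀ e, Real.exp (k * q / 2 - S e) ≤ g e := fun e => by
    rw [sub_eq_add_neg, Real.exp_add, ← sum_neg_distrib, Real.exp_sum]
    refine mul_le_mul_of_nonneg_left (prod_le_prod (fun _ _ => (Real.exp_pos _).le)
      fun l _ => ?_) (Real.exp_pos _).le
    simp only [A]
    rcases hB (e.map fun x => x l) with h | h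
    · simp [h]
    · rw [h, Real.exp_neg, inv_le_comm₀ (Real.exp_pos _) (by norm_num)]
      linarith [Real.exp_one_gt_d9]
  have g2 : dens one g ≤ Real.exp (-(k * q) / 10) := by
    have h1 : dens one (fun e => 1 + (-3 / 5) * B e) = 1 + (-3 / 5) * q := by
      rw [hq', dens_one, dens_one, av_add, av_const, av_mul]
    have h2 : q ≤ 1 := dens_le_one _ b0 b1
    rw [dens_mul, dens_tensor one fun (_ : Fin k) e => 1 + (-3 / 5) * B e, h1, prod_const,
      card_univ, Fintype.card_fin, Fintype.card_unit, pow_one]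
    calc Real.exp (k * q / 2) * (1 + (-3 / 5) * q) ^ k
        ≤ Real.exp (k * q / 2) * Real.exp ((-3 / 5) * q) ^ k := by
          gcongr
          · linarith
          · linarith [Real.add_one_le_exp ((-3 / 5) * q)]
      _ = _ := by
          rw [← Real.exp_nat_mul, ← Real.exp_add]
          congr 1
          ring
  have key : ∀ i, dens ε (U i) ≤ (2 / (k * q)) ^ Fintype.card ι * dens ε B +
      Fintype.card ι * Real.exp (-(k * q) / 10) := by
    intro i
    have h1 : dens ε (U i) ≤ av fun φ : V → Fin k → X =>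
        (∏ j, 2 / (k * q) * A i ((ε j).map φ)) + ∑ j, g ((ε j).map φ) := by
      refine av_mono fun φ => ?_
      have p0 : 0 ≤ ∏ j, 2 / (k * q) * A i ((ε j).map φ) :=
        prod_nonneg fun j _ => mul_nonneg (by positivity) (b0 _)
      have g0 : ∀ e, 0 ≤ g e := fun e => (Real.exp_pos _).le.trans (g1 e)
      by_cases h : ∀ j, k * q / 2 ≤ S ((ε j).map φ)
      · refine le_add_of_le_of_nonneg (prod_le_prod (fun j _ => u0 _ _) fun j _ => ?_)
          (sum_nonneg fun j _ => g0 _)
        have h2 : 0 < S ((ε j).map φ) := (half_pos hkq).trans_le (h j)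
        simp only [U, if_neg h2.ne']
        rw [div_eq_inv_mul, ← inv_div]
        exact mul_le_mul_of_nonneg_right (inv_anti₀ (half_pos hkq) (h j)) (b0 _)
      · push Not at h
        obtain ⟨j, hj⟩ := h
        refine le_add_of_nonneg_of_le p0 ((prod_le_one (fun j _ => u0 _ _) fun j _ =>
          le_one_of_sum u0 u1 _ _).trans (le_trans ?_ (single_le_sum (fun j _ => g0 _)
            (mem_univ j))))
        exact (Real.one_le_exp (sub_nonneg.2 hj.le)).trans (g1 _)
    rw [av_add, av_sum] at h1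
    refine h1.trans (add_le_add (le_of_eq ?_) ?_)
    · exact (dens_mul ε _ (A i)).trans (by rw [dens_proj])
    · refine (sum_le_sum fun j _ => (av_edge (hε.nd j) g).le.trans g2).trans ?_
      rw [sum_const, card_univ, nsmul_eq_mul]
  refine exists_le_mean u0 u1 ?_
  simp only [mul_sum]
  rw [sum_comm]
  refine (sum_le_sum fun i _ => ?_).trans (by rw [sum_const, card_univ, Fintype.card_fin,
    nsmul_eq_mul])
  linarith [(abs_le.1 (abs_mean_le u0 u1 hε i hN)).2, key i]

theorem eventually_colouring {ε : ι → Sym2 V} (hε : Simple ε) {B : Sym2 X → ℝ}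
    (hB : ∀ e, B e = 0 ∨ B e = 1) (h : dens ε B < dens one B ^ Fintype.card ι) :
    ∃ γ : ℝ, 0 < γ ∧ ∀ᶠ k : ℕ in atTop, ∀ᶠ N : ℕ in atTop, ∃ c : Sym2 (Fin N) → Fin k,
      ∑ i, dens ε (cls c i) ≤ (k : ℝ) ^ (1 - (Fintype.card ι : ℝ) - γ) := by
  set m := Fintype.card ι with hm
  set q := dens one B with hq
  have b0 : ∀ e, 0 ≤ B e := fun e => by rcases hB e with h | h <;> simp [h]
  have b1 : ∀ e, B e ≤ 1 := fun e => by rcases hB e with h | h <;> simp [h]
  have d0 := dens_nonneg ε b0
  have q0 : 0 < q := by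
    refine (dens_nonneg one b0).lt_of_ne fun e => ?_
    rcases Nat.eq_zero_or_pos m with h0 | h0
    · have : IsEmpty ι := Fintype.card_eq_zero_iff.1 h0
      simp [h0, dens, av_const] at h
    · rw [hq, ← e, zero_pow h0.ne'] at h
      linarith
  have q1 : q < 1 := by
    refine (dens_le_one one b0 b1).lt_of_ne fun e => ?_
    have h1 : ∀ z : X × X, B s(z.1, z.2) = 1 := by
      by_contra hc
      push Not at hc
      obtain ⟨z, hz⟩ := hc
      have h2 : ∑ z : X × X, B s(z.1, z.2) < ∑ _z : X × X, (1 : ℝ) :=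
        sum_lt_sum (fun _ _ => b1 _) ⟨z, mem_univ z, (b1 _).lt_of_ne hz⟩
      rw [dens_one, av, div_eq_one_iff_eq (by exact_mod_cast Fintype.card_ne_zero)] at e
      simp [e] at h2
    have h3 : B = fun _ => 1 := funext fun e => by
      induction e using Sym2.inductionOn with
      | hf a b => exact h1 (a, b)
    rw [hq, e, h3] at h
    simp [dens, av_const] at h
  have hc : ContinuousAt (fun δ : ℝ => q ^ ((m : ℝ) + δ)) 0 :=
    (Real.continuousAt_const_rpow q0.ne').comp (by fun_prop)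
  obtain ⟨δ, h2, h3⟩ := (((hc.eventually (lt_mem_nhds (a := dens ε B)
    (by simpa using h))).filter_mono nhdsWithin_le_nhds).and
    (self_mem_nhdsWithin (s := Set.Ioi (0 : ℝ)))).exists
  have hδ : 0 < δ := h3
  refine ⟨δ / 4, by positivity, ?_⟩
  have lsq : Tendsto (fun k : ℕ => (k : ℝ) ^ (1 / 2 : ℝ)) atTop atTop :=
    (tendsto_rpow_atTop (by norm_num)).comp tendsto_natCast_atTop_atTop
  have l1 : Tendsto (fun u : ℝ => 2 ^ m * q ^ (-δ) * u ^ (-(δ / 2)) +
      m * (u ^ (2 * (m + δ / 4)) * Real.exp (-(1 / 10) * u))) atTop (𝓝 0) := by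
    simpa using ((tendsto_rpow_neg_atTop (half_pos hδ)).const_mul (2 ^ m * q ^ (-δ))).add
      ((tendsto_rpow_mul_exp_neg_mul_atTop_nhds_zero (2 * (m + δ / 4)) (1 / 10)
        (by norm_num)).const_mul (m : ℝ))
  filter_upwards [(l1.comp lsq).eventually (gt_mem_nhds (by norm_num : (0 : ℝ) < 1 / 2)),
    eventually_gt_atTop 0] with k hk1 hk
  have k1 : (1 : ℝ) ≤ k := by exact_mod_cast hk
  have k0 : (0 : ℝ) < k := by positivity
  set u := (k : ℝ) ^ (1 / 2 : ℝ) with hu
  have u1 : 1 ≤ u := Real.one_le_rpow k1 (by norm_num)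
  have u0 : 0 < u := by positivity
  have hku : ∀ s : ℝ, u ^ (2 * s) = (k : ℝ) ^ s := fun s => by
    rw [hu, ← Real.rpow_mul k0.le]
    congr 1
    ring
  have huu : u * u = k := by
    have := hku 1
    rwa [mul_one, Real.rpow_two, Real.rpow_one, sq] at this
  obtain ⟨n, n1, n2⟩ := exists_nat_pow_near_of_lt_one (inv_pos.2 u0) (inv_le_one_of_one_le₀ u1)
    q0 q1
  have hpos : 0 < (k : ℝ) ^ (-(m : ℝ) - δ / 4) := by positivity
  filter_upwards [(tendsto_bad (V := V)).eventually (gt_mem_nhds (half_pos hpos)),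
    eventually_gt_atTop 0] with N hN1 hN
  let C : Sym2 (Fin n → X) → ℝ := fun e => ∏ l, B (e.map fun x => x l)
  have hC : ∀ e, C e = 0 ∨ C e = 1 := fun e => by
    by_cases h : ∀ l, B (e.map fun x => x l) = 1
    · exact Or.inr (prod_eq_one fun l _ => h l)
    · push Not at h
      obtain ⟨l, hl⟩ := h
      exact Or.inl (prod_eq_zero (mem_univ l) ((hB _).resolve_right hl))
  have c1 : dens one C = q ^ n := by
    rw [dens_tensor one fun _ => B, prod_const, card_univ, Fintype.card_fin]
  have c2 : dens ε C = dens ε B ^ n := by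
    rw [dens_tensor ε fun _ => B, prod_const, card_univ, Fintype.card_fin]
  obtain ⟨c, hc⟩ := exists_colouring hε hC (by rw [c1]; positivity) hk hN
  refine ⟨c, hc.trans ?_⟩
  rw [c1, c2, ← hm, sub_sub, sub_eq_add_neg, Real.rpow_add k0, Real.rpow_one, neg_add']
  refine mul_le_mul_of_nonneg_left ?_ k0.le
  set Q := q ^ n with hQ
  have Q0 : 0 < Q := by positivity
  have e1 : dens ε B ^ n ≤ Q ^ m * (q ^ (-δ) * u ^ (-δ)) := by
    calc dens ε B ^ n ≤ (q ^ ((m : ℝ) + δ)) ^ n := pow_le_pow_left₀ d0 h2.le n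
      _ = Q ^ m * Q ^ δ := by
        rw [← Real.rpow_natCast Q, ← Real.rpow_add Q0, hQ, ← Real.rpow_natCast q n,
          ← Real.rpow_mul q0.le, ← Real.rpow_natCast, ← Real.rpow_mul q0.le, mul_comm]
      _ ≤ _ := by
        refine mul_le_mul_of_nonneg_left ?_ (by positivity)
        rw [← Real.mul_rpow q0.le u0.le, Real.rpow_neg (by positivity),
          ← Real.inv_rpow (by positivity)]
        refine Real.rpow_le_rpow Q0.le ?_ hδ.le
        rw [mul_inv, le_inv_mul_iff₀ q0, mul_comm, hQ, ← pow_succ]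
        exact n1.le
  have e2 : Real.exp (-(k * Q) / 10) ≤ Real.exp (-(1 / 10) * u) := by
    refine Real.exp_le_exp.2 ?_
    have : u ≤ k * Q := by
      calc u = k * u⁻¹ := by rw [← huu]; field_simp
        _ ≤ k * Q := by gcongr
    linarith
  have e3 : (2 / (k * Q)) ^ m * (Q ^ m * (q ^ (-δ) * u ^ (-δ))) =
      2 ^ m * q ^ (-δ) * u ^ (-(δ / 2)) * (k : ℝ) ^ (-(m : ℝ) - δ / 4) := by
    have a1 : (k : ℝ) ^ (-(m : ℝ) - δ / 4) = ((k : ℝ) ^ m)⁻¹ * u ^ (-(δ / 2)) := by
      rw [sub_eq_add_neg, Real.rpow_add k0, Real.rpow_neg k0.le, Real.rpow_natCast, ← hku]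
      congr 2
      ring
    have a2 : u ^ (-δ) = u ^ (-(δ / 2)) * u ^ (-(δ / 2)) := by
      rw [← Real.rpow_add u0]
      congr 1
      ring
    rw [a1, a2, div_pow, mul_pow]
    field_simp
  have e4 : Real.exp (-(1 / 10) * u) = u ^ (2 * (m + δ / 4)) * Real.exp (-(1 / 10) * u) *
      (k : ℝ) ^ (-(m : ℝ) - δ / 4) := by
    rw [hku, mul_right_comm, ← Real.rpow_add k0]
    simp
  have e5 : (2 / (k * Q)) ^ m * dens ε B ^ n + m * Real.exp (-(k * Q) / 10) ≤
      (2 ^ m * q ^ (-δ) * u ^ (-(δ / 2)) + m * (u ^ (2 * (m + δ / 4)) *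
        Real.exp (-(1 / 10) * u))) * (k : ℝ) ^ (-(m : ℝ) - δ / 4) := by
    rw [add_mul, ← e3, mul_assoc (m : ℝ), ← e4]
    gcongr
  have e6 := mul_le_mul_of_nonneg_right hk1.le hpos.le
  simp only [Function.comp] at e6
  linarith

end colours

end

end Vale.Agent.N050B
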