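import Vale.Agent.N050B.Main

/-!
# P050: failure at every small density
-/

namespace Vale.Agent.N050B

open Finset Filter Topology Function MeasureTheory unitInterval

noncomputable section

variable {ι V X : Type}

theorem exists_params {q d : ℝ} {m v : ℕ} (q0 : 0 < q) (q1 : q ≤ 1) (d0 : 0 < d) (h : d < q ^ m)
    (hv : v < 2 * m) : ∃ γ p₀ : ℝ, 0 < γ ∧ 0 < p₀ ∧ p₀ < 1 ∧ ∀ x, 0 < x → x ≤ p₀ →
      ∀ s, x ^ ((m : ℝ) + γ) ≤ s → s ≤ x ^ m → ∃ (n : ℕ) (l α : ℝ), 0 ≤ l ∧ l ≤ 1 ∧ 0 < α ∧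
        α ≤ x ^ γ ∧ α ≤ 1 ∧ l * q ^ n * α ^ 2 = x ∧ l ^ m * d ^ n * α ^ v = s := by
  obtain ⟨D, hD⟩ : ∃ D : ℕ, 2 * m = v + (D + 1) := ⟨2 * m - v - 1, by omega⟩
  obtain ⟨ρ, hρ⟩ : ∃ ρ : ℝ, ρ = d / q ^ m := ⟨_, rfl⟩
  have ρ0 : 0 < ρ := by rw [hρ]; positivity
  have ρ1 : ρ < 1 := by rw [hρ]; exact (div_lt_one (by positivity)).2 h
  obtain ⟨r, hr⟩ : ∃ r : ℝ, r = q * ρ ^ 2 := ⟨_, rfl⟩
  have r0 : 0 < r := by rw [hr]; positivity
  have r1 : r < 1 := by
    rw [hr]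
    exact mul_lt_one_of_nonneg_of_lt_one_right q1 (by positivity) (pow_lt_one₀ ρ0.le ρ1 two_ne_zero)
  obtain ⟨θ, hθ⟩ : ∃ θ : ℝ, θ = Real.logb r ρ := ⟨_, rfl⟩
  have θ0 : 0 < θ := by rw [hθ]; exact Real.logb_pos_of_base_lt_one r0 r1 ρ0 ρ1
  have hρr : r ^ θ = ρ := by rw [hθ]; exact Real.rpow_logb r0 r1.ne ρ0
  obtain ⟨γ, hγ⟩ : ∃ γ : ℝ, γ = θ / (2 * (D + 2)) := ⟨_, rfl⟩
  have γ0 : 0 < γ := by rw [hγ]; positivity
  refine ⟨γ, r ^ 2, γ0, by positivity, pow_lt_one₀ r0.le r1 two_ne_zero,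
    fun x x0 hx s s1 s2 => ?_⟩
  have x1 : x ≤ 1 := hx.trans (pow_le_one₀ r0.le r1.le)
  have s0 : 0 < s := (Real.rpow_pos_of_pos x0 _).trans_le s1
  obtain ⟨n, n1, n2⟩ := exists_nat_pow_near_of_lt_one x0 x1 r0 r1
  obtain ⟨y, hy⟩ : ∃ y : ℝ, y = ρ ^ n * x ^ m / s := ⟨_, rfl⟩
  have y0 : 0 < y := by rw [hy]; positivity
  have y1 : ρ ^ n ≤ y := by
    rw [hy, le_div_iff₀ s0]
    gcongr
  have a1 : r ^ n ≤ x ^ (1 / 2 : ℝ) := by
    have h1 : x ^ (1 / 2 : ℝ) ≤ r := by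
      rw [← Real.sqrt_eq_rpow]
      exact Real.sqrt_le_iff.2 ⟨r0.le, hx⟩
    have h2 : x ^ (1 / 2 : ℝ) * x ^ (1 / 2 : ℝ) = x := by
      rw [← Real.rpow_add x0]
      norm_num
    have h3 : 0 < x ^ (1 / 2 : ℝ) := by positivity
    refine le_of_mul_le_mul_right ?_ r0
    rw [← pow_succ]
    nlinarith
  have a2 : ρ ^ n ≤ x ^ (θ / 2) := by
    rw [← hρr, ← Real.rpow_natCast, ← Real.rpow_mul r0.le, mul_comm, Real.rpow_mul r0.le,
      Real.rpow_natCast, div_eq_inv_mul, Real.rpow_mul x0.le, ← one_div]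
    exact Real.rpow_le_rpow (by positivity) a1 θ0.le
  have y2 : y ≤ (x ^ γ) ^ (D + 1) := by
    rw [hy, div_le_iff₀ s0]
    calc ρ ^ n * x ^ m ≤ x ^ (θ / 2) * x ^ m := by gcongr
      _ = (x ^ γ) ^ (D + 1) * x ^ ((m : ℝ) + γ) := by
        rw [← Real.rpow_natCast (x ^ γ), ← Real.rpow_mul x0.le, ← Real.rpow_natCast x,
          ← Real.rpow_add x0, ← Real.rpow_add x0, hγ]
        congr 1
        push_cast
        field_simp
        ring
      _ ≤ _ := by gcongr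
  obtain ⟨α, α0, hα⟩ : ∃ α : ℝ, 0 < α ∧ α ^ (D + 1) = y :=
    ⟨y ^ ((D + 1 : ℕ) : ℝ)⁻¹, by positivity, Real.rpow_inv_natCast_pow y0.le (by omega)⟩
  have α1 : α ≤ x ^ γ :=
    le_of_pow_le_pow_left₀ (n := D + 1) (by omega) (by positivity) (hα.le.trans y2)
  have α2 : α ≤ 1 := α1.trans (Real.rpow_le_one x0.le x1 γ0.le)
  have α3 : ρ ^ n ≤ α := by
    refine y1.trans ?_
    rw [← hα, pow_succ]
    exact mul_le_of_le_one_left α0.le (pow_le_one₀ α0.le α2)
  refine ⟨n, x / (q ^ n * α ^ 2), α, by positivity, ?_, α0, α1, α2, by field_simp, ?_⟩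
  · rw [div_le_one (by positivity)]
    refine n2.trans ?_
    rw [hr, mul_pow, ← pow_mul, mul_comm 2, pow_mul]
    gcongr
  · have h1 : d = ρ * q ^ m := by rw [hρ]; field_simp
    have h2 : s = ρ ^ n * x ^ m / α ^ (D + 1) := by rw [hα, hy]; field_simp
    rw [h1, h2, div_pow, mul_pow, mul_pow, ← pow_mul α, hD, pow_add α v, ← pow_mul, ← pow_mul,
      mul_comm m n]
    field_simp

theorem exists_weight [Fintype ι] [Fintype V] [DecidableEq V] [Fintype X] (ε : ι → Sym2 V)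
    {B : Sym2 X → ℝ} (b0 : ∀ e, 0 ≤ B e) (b1 : ∀ e, B e ≤ 1) (n : ℕ) {l : ℝ} (l0 : 0 ≤ l)
    (l1 : l ≤ 1) : ∃ A : Sym2 (Fin n → X) → ℝ, (∀ e, 0 ≤ A e) ∧ (∀ e, A e ≤ 1) ∧
      dens one A = l * dens one B ^ n ∧ dens ε A = l ^ Fintype.card ι * dens ε B ^ n := by
  refine ⟨fun e => l * ∏ i, B (e.map fun x => x i),
    fun e => mul_nonneg l0 (prod_nonneg fun _ _ => b0 _),
    fun e => mul_le_one₀ l1 (prod_nonneg fun _ _ => b0 _)
      (prod_le_one (fun _ _ => b0 _) fun _ _ => b1 _), ?_, ?_⟩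
  · rw [dens_mul, dens_tensor one fun _ => B, prod_const, card_univ, Fintype.card_fin,
      Fintype.card_unit, pow_one]
  · rw [dens_mul, dens_tensor ε fun _ => B, prod_const, card_univ, Fintype.card_fin]

/-- the path with two edges -/
def cherry : Fin 2 → Sym2 (Fin 3) := fun j => s(0, j.succ)

theorem edgeSet_cherry :
    (SimpleGraph.fromEdgeSet (Set.range cherry)).edgeSet = Set.range cherry := by
  rw [SimpleGraph.edgeSet_fromEdgeSet, sdiff_eq_left, Set.disjoint_left]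
  rintro _ ⟨j, rfl⟩
  simpa [cherry] using (Fin.succ_ne_zero j).symm

theorem t_cherry [Fintype X] (G : SimpleGraph X) :
    t (SimpleGraph.fromEdgeSet (Set.range cherry)) G =
      av fun x => av (fun y => ind G s(x, y)) ^ 2 := by
  classical
  rw [t_eq, dens, ← av_equiv (Fin.consEquiv fun _ : Fin 3 => X), av_prod]
  congr 1
  funext x
  have h := av_pi fun (_ : Fin 2) y => ind G s(x, y)
  rw [prod_const, card_univ, Fintype.card_fin] at h
  rw [← h]
  congr 1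
  funext ψ
  simp only [ind, Fintype.prod_boole, Subtype.forall, edgeSet_cherry, Set.forall_mem_range]
  congr 1

theorem sq_le_cherry {N : ℕ} (hN : 0 < N) (G : SimpleGraph (Fin N)) {α : ℝ}
    (h : (1 - α) * N ≤ Set.ncard {v | G.IsIsolated v}) :
    p G ^ 2 ≤ α * t (SimpleGraph.fromEdgeSet (Set.range cherry)) G := by
  classical
  have N0 : (0 : ℝ) < N := by exact_mod_cast hN
  rw [t_cherry, p_eq, dens_one, av_prod]
  set D : Fin N → ℝ := fun x => av fun y => ind G s(x, y) with hD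
  let S : Finset (Fin N) := univ.filter fun v => ¬G.IsIsolated v
  have h1 : ∑ x ∈ S, D x = ∑ x, D x := sum_subset (subset_univ _) fun x _ hx => by
    have h2 : G.IsIsolated x := by simpa [S] using hx
    simp [hD, av, ind, h2 _]
  have h2 : (S.card : ℝ) ≤ α * N := by
    have h3 := card_filter_add_card_filter_not (s := univ) fun v => G.IsIsolated v
    rw [card_univ, Fintype.card_fin] at h3
    rw [← Set.ncard_coe_finset, coe_filter_univ] at h3
    have h4 : (Set.ncard {v | G.IsIsolated v} : ℝ) + S.card = N := by exact_mod_cast h3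
    linarith
  have h3 : (∑ x, D x) ^ 2 ≤ α * N * ∑ x, D x ^ 2 := by
    rw [← h1]
    refine sq_sum_le_card_mul_sum_sq.trans ?_
    have : 0 ≤ α * N := (Nat.cast_nonneg _).trans h2
    gcongr
    exact subset_univ _
  change av D ^ 2 ≤ α * av fun x => D x ^ 2
  rw [av, av, Fintype.card_fin, div_pow, div_le_iff₀ (by positivity)]
  refine h3.trans_eq ?_
  field_simp

theorem not_forcing {H : SimpleGraph V} {q α : ℝ} (q0 : 0 < q) (hα : α < 1)
    {G : ∀ N, SimpleGraph (Fin N)} (h1 : Tendsto (fun N => p (G N)) atTop (𝓝 q))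
    (h2 : Tendsto (fun N => t H (G N)) atTop (𝓝 (q ^ Nat.card H.edgeSet)))
    (h3 : ∀ N : ℕ, (1 - α) * N ≤ Set.ncard {v | (G N).IsIsolated v}) : ¬Forcing H q := by
  intro h
  have h4 := h G h1 h2 3 (SimpleGraph.fromEdgeSet (Set.range cherry))
  have h5 : Injective cherry := by
    intro i j
    fin_cases i <;> fin_cases j <;> simp [cherry]
  rw [edgeSet_cherry, Nat.card_range_of_injective h5, Nat.card_fin] at h4
  have h6 := le_of_tendsto_of_tendsto (h1.pow 2) (h4.const_mul α)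
    ((eventually_gt_atTop 0).mono fun N hN => sq_le_cherry hN (G N) (h3 N))
  nlinarith [pow_pos q0 2]

theorem consequences [Fintype V] {H : SimpleGraph V} (hc : H.Connected) (hb : H.IsBipartite)
    (hS : ¬Sidorenko H) :
    (∃ γ q₀ : ℝ, 0 < γ ∧ 0 < q₀ ∧ q₀ < 1 ∧ ∀ q, 0 < q → q ≤ q₀ → ¬Forcing H q ∧
      (∃ W, IsGraphon W ∧ ∫ z : I × I, W z.1 z.2 = q ∧
        tW H W ≤ q ^ ((Nat.card H.edgeSet : ℝ) + γ)) ∧
      ∀ s, q ^ ((Nat.card H.edgeSet : ℝ) + γ) ≤ s → s ≤ q ^ Nat.card H.edgeSet →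
        ∃ G : ∀ N, SimpleGraph (Fin N), Tendsto (fun N => p (G N)) atTop (𝓝 q) ∧
          Tendsto (fun N => t H (G N)) atTop (𝓝 s) ∧
          ∀ N : ℕ, (1 - q ^ γ) * N ≤ Set.ncard {v | (G N).IsIsolated v}) ∧
    ∃ γ : ℝ, 0 < γ ∧ ∀ᶠ k : ℕ in atTop, ∀ᶠ N : ℕ in atTop, ∃ c : Sym2 (Fin N) → Fin k,
      ∑ i, t H (SimpleGraph.fromEdgeSet {e | c e = i}) ≤
        (k : ℝ) ^ (1 - (Nat.card H.edgeSet : ℝ) - γ) := by
  classical
  unfold Sidorenko at hS
  push Not at hS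
  obtain ⟨X, _, _, G, hG⟩ := hS
  have := Fintype.ofFinite X
  have hm : Nat.card H.edgeSet = Fintype.card H.edgeSet := Nat.card_eq_fintype_card
  have hG' := hG
  rw [t_eq, p_eq, hm] at hG'
  have b0 := ind_nonneg G
  have b1 := ind_le_one G
  have d0 := dens_nonneg (Subtype.val : H.edgeSet → Sym2 V) b0
  have m2 : 2 ≤ Fintype.card H.edgeSet := by
    by_contra hlt
    rcases (by omega : Fintype.card H.edgeSet = 0 ∨ Fintype.card H.edgeSet = 1) with h | h
    · have : IsEmpty H.edgeSet := Fintype.card_eq_zero_iff.1 h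
      simp [dens, av_const] at hG'
    · obtain ⟨e, he⟩ := Fintype.card_eq_one_iff.1 h
      let _ : Unique H.edgeSet := ⟨⟨e⟩, he⟩
      rw [h, pow_one, ← av_edge ((simple_val H).nd default), dens] at hG'
      simp only [Fintype.prod_unique, lt_self_iff_false] at hG'
  have q0 : 0 < dens one (ind G) := by
    refine (dens_nonneg one b0).lt_of_ne fun e => ?_
    rw [← e, zero_pow (by omega)] at hG'
    linarith
  have t0 : 0 < dens (Subtype.val : H.edgeSet → Sym2 V) (ind G) := by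
    rw [← p_eq, p] at q0
    have h1 : 0 < Nat.card G.edgeSet := by
      by_contra h
      rw [Nat.eq_zero_of_not_pos h] at q0
      simp at q0
    obtain ⟨⟨e, he⟩⟩ := (Nat.card_pos_iff.1 h1).1
    obtain ⟨C⟩ := hb
    induction e using Sym2.inductionOn with
    | hf a b =>
      have hab : G.Adj a b := he
      have : Nonempty (H →g G) := ⟨⟨fun v => ![a, b] (C v), fun {u v} h => by
        have h2 := C.valid h
        generalize C u = i at h2 ⊢
        generalize C v = j at h2 ⊢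
        fin_cases i <;> fin_cases j <;> simp_all [hab.symm]⟩⟩
      have : Finite (H →g G) := Finite.of_injective _ DFunLike.coe_injective
      have h3 : 0 < Nat.card (H →g G) := Nat.card_pos
      have h4 : 0 < Nat.card X := Nat.card_pos
      rw [← t_eq, t]
      positivity
  have hv : Nat.card V < 2 * Fintype.card H.edgeSet := by
    have := hc.card_vert_le_card_edgeSet_add_one
    omega
  have hadj : ∀ v, ∃ w, H.Adj v w := fun v => by
    obtain ⟨⟨e, he⟩⟩ : Nonempty H.edgeSet := Fintype.card_pos_iff.1 (by omega)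
    induction e using Sym2.inductionOn with
    | hf a b =>
      have hab : H.Adj a b := he
      have : Nontrivial V := ⟨a, b, hab.ne⟩
      exact hc.preconnected.exists_adj_of_nontrivial v
  rw [hm]
  constructor
  · obtain ⟨γ, q₀, γ0, h0, h1, h⟩ := exists_params q0 (dens_le_one one b0 b1) t0 hG' hv
    refine ⟨γ, q₀, γ0, h0, h1, fun q hq hq' => ?_⟩
    have q1 : q < 1 := hq'.trans_lt h1
    have hle : q ^ ((Fintype.card H.edgeSet : ℝ) + γ) ≤ q ^ Fintype.card H.edgeSet := by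
      rw [← Real.rpow_natCast]
      exact Real.rpow_le_rpow_of_exponent_ge hq q1.le (by linarith)
    refine (and_iff_right_of_imp fun h => ?_).2 ⟨?_, fun s s1 s2 => ?_⟩
    · obtain ⟨G, g1, g2, g3⟩ := h.2 _ hle le_rfl
      exact not_forcing hq (Real.rpow_lt_one hq.le q1 γ0) g1 (by rwa [hm]) g3
    · obtain ⟨n, l, α, l0, l1, α0, -, α2, e1, e2⟩ := h q hq hq' _ le_rfl hle
      obtain ⟨A, a0, a1, a2, a3⟩ := exists_weight (Subtype.val : H.edgeSet → Sym2 V) b0 b1 n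
        (l := l * α ^ 2) (by positivity) (mul_le_one₀ l1 (by positivity) (pow_le_one₀ α0.le α2))
      obtain ⟨W, w1, w2, w3⟩ := exists_graphon H a0 a1
      refine ⟨W, w1, by rw [w2, a2, ← e1]; ring, ?_⟩
      rw [w3, a3, ← e2, mul_pow, ← pow_mul, mul_right_comm]
      exact mul_le_mul_of_nonneg_left (pow_le_pow_of_le_one α0.le α2 hv.le) (by positivity)
    · obtain ⟨n, l, α, l0, l1, α0, α1, α2, e1, e2⟩ := h q hq hq' s s1 s2
      obtain ⟨A, a0, a1, a2, a3⟩ := exists_weight (Subtype.val : H.edgeSet → Sym2 V) b0 b1 n l0 l1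
      obtain ⟨G₁, g1, g2⟩ := exists_seq H a0 a1
      obtain ⟨G₂, g3, g4, g5⟩ := exists_seq_frac hadj g1 g2 α0 α2
      rw [a2, e1] at g3
      rw [a3, e2] at g4
      refine ⟨G₂, g3, g4, fun N => le_trans ?_ (g5 N)⟩
      gcongr
  · obtain ⟨γ, γ0, h⟩ := eventually_colouring (simple_val H) (ind_cases G) hG'
    refine ⟨γ, γ0, h.mono fun k hk => hk.mono fun N ⟨c, hc⟩ => ⟨c, ?_⟩⟩
    simpa only [t_eq, ind_cls] using hc

end

end Vale.Agent.N050B
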